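import Vale.Agent.P167.H872.Asm.IdQ
import Vale.Agent.P167.H411.Q.NDzF
import Vale.Agent.P167.H436.ND.Nda8
import Vale.Agent.P167.H167.Q.EqG
import Vale.Agent.P167.H365.Q.FinAll

/-!
# P167, general `q`: the output of the analysis with the explicit one-point function `zN`

The blocks EQ, ND and NRED are theorems; `In2`: the remaining inputs (block 2A and the local Neumann
input), only for the polygons and filters which occur: base in the middle of a side in the direction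
`0`, junction in the middle of a side in the direction `0`, `4 ∣ n`.
-/

namespace Vale.Agent.P167.H872.Asm

open Filter Topology Vale.Agent.P167.FK Vale.Agent.P167.FKA
open Vale.Agent.P167.CA (Dat)
open Vale.Agent.P167.H825.Q (S2aQq Bc bdQ qS kS tN)
open Vale.Agent.P167.H760.Q (NeuH)
open Vale.Agent.P167.H365.NQ (NREDQ nredq_cos)
open Vale.Agent.P167.H411.B7 (Shp)
open Vale.Agent.P167.H411.Q (NDz NDa OutL GMarks QAny bpt nrm out_dat arcW arcF Fam3 zN ndz_fin)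
open Vale.Agent.P167.BVP (Flat)
open Vale.Agent.P167.QB (gB)
open Vale.Agent.P167.QT (Sh4 F4 F4_le)

/-- The polygons and the filters in question. -/
structure Gd (S : Dat) (L : Filter ℕ) : Prop where
  tp : S.tp = 1 / 2
  r : S.r = 0
  four : L ≤ 𝓟 {n | 4 ∣ n}

/-- The boundary conditions in question: the junction is at the position `tp` of a side in the
direction `0`. -/
def BcG (S : Dat) (bc : Bc) : Prop :=
  match bc with
  | .dob i ta => ta = S.tp ∧ S.p (i + 1) = S.p i + (1, 0)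
  | _ => True

/-- **The remaining inputs.** -/
structure In2 (θ : ℝ) (h0 : 0 < θ) (h1 : θ ≤ Real.pi / 3) : Prop where
  /-- Block 2A. -/
  two : S2aQq θ (gB θ)
  /-- The local Neumann input. -/
  tw : ∀ (S : Dat) (bc : Bc) (hbc : bc.In S.l) (L : Filter ℕ) (hL : L ≤ atTop)
    (hc : L.IsCountablyGenerated), Gd S L → BcG S bc → ∀ f, S.FF f →
      NeuH S L fun n => (fam h0 h1 S bc hbc L hL hc).H n f

/-- **Output for every polygon, with the one-point function `zN`.** -/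
theorem out_N {θ : ℝ} (h0 : 0 < θ) (h1 : θ ≤ Real.pi / 3) (I : In2 θ h0 h1) {χ : ℂ → ℝ}
    (hχ : Shp Complex.I χ) (S : Dat) (i : ℕ) (hi : Bc.In S.l (.dob i S.tp)) (L : Filter ℕ)
    (hL : L ≤ atTop) (hc : L.IsCountablyGenerated) (hg : Gd S L)
    (htip : S.p (i + 1) = S.p i + (1, 0)) (c νc : ℂ) (rc : ℝ) (d νd : ℂ) (rd u v : ℝ)
    (hM : GMarks S (bpt S (i + S.tp)) c νc rc d νd rd)
    (hQ : QAny S.P (bpt S (i + S.tp)) S.bp c d u v) :
    OutL θ (fam h0 h1 S (.dob i S.tp) hi L hL hc) χ (zN θ χ) νc c νd d u v := by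
  obtain ⟨χp, hχp, hz⟩ := ndz_fin h0 h1 (hbe θ)
  have hi' := hi
  obtain ⟨i0, i1, t0, t1⟩ := hi'
  have hN : ∀ t, NREDQ (2 * Real.cos θ) t 8 := fun t => nredq_cos h0 h1 t (by norm_num)
  -- moments
  have mom : ∀ (bc : Bc) (hbc : bc.In S.l), (fam h0 h1 S bc hbc L hL hc).MOM := fun bc hbc =>
    H662.L.momF_bdQ I.two h0 h1 (hbe θ) S hbc hL hc
  -- core
  have core : ∀ (bc : Bc) (hbc : bc.In S.l), BcG S bc → (fam h0 h1 S bc hbc L hL hc).CORE :=
    fun bc hbc hb => core_of h0 h1 (hbe θ) _ (mom bc hbc) hN (I.tw S bc hbc L hL hc hg hb)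
      (H167.Q.bdQ_EQ h0 h1 (hbe θ) hbc hL hc)
  have hD : BcG S (.dob i S.tp) := ⟨rfl, htip⟩
  have tD := I.tw S (.dob i S.tp) hi L hL hc hg hD _ (ff_zero S)
  have tF := I.tw S .free trivial L hL hc hg trivial _ (ff_zero S)
  have tW := I.tw S .wired trivial L hL hc hg trivial _ (ff_zero S)
  have hb : ∀ᶠ n : ℕ in L, qS S n 0 = S.b n :=
    hL ((eventually_gt_atTop 0).mono fun _ hn => H825.Q.qS_zero S hn)
  have hR := K8.k_rsw θ h0.le h1
  have a0 : S.tp < (i : ℝ) + S.tp := by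
    have : (0 : ℝ) < i := by exact_mod_cast i0
    linarith
  have a1 : (i : ℝ) + S.tp < S.l + S.tp := by
    have : (i : ℝ) < S.l := by exact_mod_cast i1
    linarith
  have hF3 : Fam3 θ (fam h0 h1 S (.dob i S.tp) hi L hL hc) (fam h0 h1 S .free trivial L hL hc)
      (fam h0 h1 S .wired trivial L hL hc) := ⟨h0, h1, rfl, rfl, rfl, rfl, rfl⟩
  have lY : H411.Q.Lims (fam h0 h1 S (.dob i S.tp) hi L hL hc) (fam h0 h1 S .free trivial L hL hc)
      (arcW S (i + S.tp)) := by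
    refine H760.Q.lims_DF' h0 h1 (hbe θ) hR (bdQ S θ (gB θ) (.dob i S.tp) hi L hL hc)
      (bdQ S θ (gB θ) .free trivial L hL hc) rfl hb hb (Eventually.of_forall fun n => rfl)
      (C₀ := 1) a0 a1 (Eventually.of_forall fun n => ?_) (mom _ _) (mom _ _) tD tF
    show ((i : ℝ) + S.tp) * n - 1 ≤ ⌊S.tp * n⌋₊ + ((kS S (.dob i S.tp) n : ℕ) : ℝ)
    rw [kS_dob]
    have := Nat.lt_floor_add_one (S.tp * (n : ℝ))
    push_cast
    linarith
  have lZ : H411.Q.Lims (fam h0 h1 S (.dob i S.tp) hi L hL hc)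
      (fam h0 h1 S .wired trivial L hL hc) (arcF S (i + S.tp)) := by
    refine H760.Q.lims_DW' h0 h1 (hbe θ) hR (bdQ S θ (gB θ) (.dob i S.tp) hi L hL hc)
      (bdQ S θ (gB θ) .wired trivial L hL hc) rfl hb hb (Eventually.of_forall fun n => rfl)
      (C₀ := 0) a0 (Eventually.of_forall fun n => ?_) (mom _ _) (mom _ _) tD tW
    show (⌊S.tp * n⌋₊ : ℝ) + ((kS S (.dob i S.tp) n : ℕ) : ℝ) ≤ ((i : ℝ) + S.tp) * n + 0
    rw [kS_dob]
    have := Nat.floor_le (a := S.tp * (n : ℝ)) (by have := S.tp0; positivity)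
    push_cast
    linarith
  have hflat := H411.Q.flat_bpt S 0 S.tp0 S.tp1
  rw [Int.cast_zero, zero_add, H411.Q.bpt_bp] at hflat
  have hd := H411.Q.junction_ne S (i := i) (t := S.tp) (by exact_mod_cast a0) (by exact_mod_cast a1)
  have hrp : Flat S.P S.bp (nrm S 0) (H411.Q.rB S i S.tp) :=
    H411.Q.flat_le hflat (lt_min hflat.pos hd) (min_le_left _ _)
  have hna : NDa θ (fam h0 h1 S (.dob i S.tp) hi L hL hc) (fam h0 h1 S .free trivial L hL hc)
      (bpt S (i + S.tp)) (nrm S i) := H436.ND.nda_fin h0 h1 (hbe θ) S hi trivial hL hc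
  have key := out_dat hF3 (i := (i : ℤ)) (t := S.tp) t0 t1 (by exact_mod_cast a0)
    (by exact_mod_cast a1) (core _ _ hD) (core _ _ trivial) (core _ _ trivial) hχp hχ
    (hz S trivial trivial hL hc hrp) (by simpa using hna) (by simpa using lY) (by simpa using lZ)
    (c := c) (νc := νc) (rc := rc) (d := d) (νd := νd) (rd := rd) (by simpa using hM) (u := u)
    (v := v) (by simpa using hQ)
  exact key

/-- **[IDQ] with the explicit function `zN`.** -/
def IdN {μ : ℝ} (h0 : 0 < μ) (h1 : μ ≤ Real.pi / 3) (χ : ℂ → ℝ) : Prop :=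
  ∀ (P : Sh4) (h : P.Ok 2) (u v : ℝ), P.Pos u v →
    OutL μ (QT.fam h0 h1 h) χ (zN μ χ) Complex.I ((P.l - P.j : ℝ) : ℂ) Complex.I 0 u v

theorem IdN.idQ {μ : ℝ} {h0 : 0 < μ} {h1 : μ ≤ Real.pi / 3} {χ : ℂ → ℝ} (h : IdN h0 h1 χ) :
    QT.IdQ h0 h1 χ :=
  ⟨zN μ χ, h⟩

theorem gd_dat {P : Sh4} {ρ : ℕ} (h : P.Ok ρ) : Gd (Sh4.dat h) F4 :=
  ⟨rfl, rfl, inf_le_right⟩

/-- **[IDQ] from the remaining inputs**, every shape `χ`. -/
theorem idN_of {μ : ℝ} (h0 : 0 < μ) (h1 : μ ≤ Real.pi / 3) (J : In2 μ h0 h1) {χ : ℂ → ℝ}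
    (hχ : Shp Complex.I χ) : IdN h0 h1 χ := fun P h u v hp =>
  out_N h0 h1 J hχ (Sh4.dat h) (P.m - P.k) (Sh4.bc_in h) F4 F4_le inferInstance (gd_dat h)
    (tip_step h) _ _ _ _ _ _ u v (gmarks_dat h le_rfl) (qany_dat h hp)

end Vale.Agent.P167.H872.Asm
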