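import Vale.Agent.P167.H872.Asm.ML
import Vale.Agent.P167.H601.M.MomT
import Vale.Agent.P167.H852.Q.Lx10
import Vale.Agent.P167.H975.LamD
import Vale.Agent.P167.H718.Lam.Fin
import Vale.Agent.P167.H365.L.Flat
import Vale.Agent.P167.H562.LG.Main
import Vale.Agent.P167.H167.Q.US

/-!
# P167, general `q`: `BlockML` and `BlockIB` are theorems
-/

namespace Vale.Agent.P167.H872.Asm

open Vale.Agent.P167.FK
open Vale.Agent.P167.CA (Dat)
open Vale.Agent.P167.H852.Q (Cls MomT LamT)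

/-- **The two inputs of the Neumann block.** -/
theorem blockML : BlockML := by
  intro θ h0 h1 S X s hb hc
  have hR : RSW (2 * Real.cos θ) := K8.k_rsw θ h0.le h1
  have hSR : H192.Q.SRSW (2 * Real.cos θ) := H469.srsw_of_rsw h0 h1 hR
  have hL := H718.Lam.lamP h0 h1 hR hSR
  refine ⟨H601.M.momT h0 h1 hR hSR X hb hc, ?_⟩
  rcases hc.ty with ⟨b, hf⟩ | ⟨ia, hd⟩
  · exact H852.Q.Lx.lamT_fw h0 h1 hR hSR (H167.Q.u_S h0 h1 hR hSR)
      (H365.L.l_flat h0 h1 hR hSR (H562.LG.l_gen h0 h1 hR hSR)) hL X hb hc hf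
  · exact H975.LamD.lamT_db h0 h1 hR hSR X (H760.Q.baseQ_b hd.b) hc hd
      (hL _ (H975.LamD.uD_ok hc.r hd.i0 hd.i1 hd.dir))

/-- **The block of the identity and of the bridge.** -/
theorem blockIB : QT.BlockIB := blockIB_ml blockML

end Vale.Agent.P167.H872.Asm
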