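import Vale.Agent.P167.H662.L.Asm2
import Vale.Agent.P167.CAQ.J8
import Vale.Agent.P167.CAQ.Asm
import Vale.Agent.P167.H411.Q.As2
import Vale.Agent.P167.H760.Q.Maj
import Vale.Agent.P167.H760.Q.Bs7

/-!
# P167, general `q`: assembly of the output of the analysis (`OutL`) for the Dobrushin families

`√q = 2 cos θ`, gauge 2: `β = (θ - π) / 2`. For a lattice polygon `S : CA.Dat`, the three families
`bdQ` (free, wired, Dobrushin with the junction at the position `tp` of the side `ia`) along a filter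
`L ≤ atTop`.
-/

namespace Vale.Agent.P167.H872.Asm

open Filter Topology Vale.Agent.P167.FK Vale.Agent.P167.FKA
open Vale.Agent.P167.CA (Dat)
open Vale.Agent.P167.H825.Q (S2aQq Bc bdQ qS kS tN)
open Vale.Agent.P167.H542.Q (BD)
open Vale.Agent.P167.H760.Q (NeuH core_of')
open Vale.Agent.P167.H365.NQ (NREDQ)

variable {θ β : ℝ}

theorem ff_zero (S : Dat) : S.FF fun _ => 0 := by
  refine ⟨⟨contDiff_const, ?_, ?_⟩, by simp⟩
  · exact HasCompactSupport.zero
  · simp [tsupport]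

/-- `CORE` of a Dobrushin family. -/
theorem core_of (h0 : 0 < θ) (h1 : θ ≤ Real.pi / 3) (hβ : Real.cos (θ / 2 + β) = Real.sin θ)
    {S : Dat} (X : BD S θ β) (hM : (X.famB h0 h1 hβ).MOM)
    (_hN : ∀ t, NREDQ (2 * Real.cos θ) t 8)
    (hT : ∀ f, S.FF f → NeuH S X.L fun n => (X.famB h0 h1 hβ).H n f)
    (hE : (X.famB h0 h1 hβ).EQ) : (X.famB h0 h1 hβ).CORE :=
  core_of' h0 h1 hβ X (K8.k_rsw θ h0.le h1) hM hT hE

end Vale.Agent.P167.H872.Asm
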