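import Vale.Agent.P153.R2.R1.HalfP

/-!
# Mirror images of uniformizers
-/

open Complex Set Filter Topology Bornology
open scoped ComplexConjugate

namespace Vale.Agent.P167.H872.Asm

open Vale.Agent.P153.R2.R1 (IsU)

/-- The reflection at the imaginary axis. -/
def Rf (z : ℂ) : ℂ := -conj z

theorem Rf_Rf (z : ℂ) : Rf (Rf z) = z := by simp [Rf]

theorem Rf_im (z : ℂ) : (Rf z).im = z.im := by simp [Rf]

theorem Rf_re (z : ℂ) : (Rf z).re = -z.re := by simp [Rf]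

theorem continuous_Rf : Continuous Rf := (continuous_conj).neg

theorem Rf_ofReal (x : ℝ) : Rf x = ((-x : ℝ) : ℂ) := by simp [Rf]

theorem norm_Rf (z : ℂ) : ‖Rf z‖ = ‖z‖ := by simp [Rf]

/-- The mirror image of a map. -/
def Mf (ψ : ℂ → ℂ) (z : ℂ) : ℂ := Rf (ψ (Rf z))

theorem hasDerivWithinAt_Mf {ψ : ℂ → ℂ} {d : ℂ} {x : ℂ} {s t : Set ℂ} (hs : ∀ z ∈ t, Rf z ∈ s)
    (h : HasDerivWithinAt ψ d s x) : HasDerivWithinAt (Mf ψ) (conj d) t (Rf x) := by
  rw [hasDerivWithinAt_iff_tendsto] at h ⊢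
  have h1 : Tendsto Rf (𝓝[t] (Rf x)) (𝓝[s] x) := by
    refine tendsto_nhdsWithin_iff.2 ⟨?_, eventually_nhdsWithin_of_forall hs⟩
    have := continuous_Rf.tendsto (Rf x)
    rw [Rf_Rf] at this
    exact this.mono_left nhdsWithin_le_nhds
  refine (h.comp h1).congr fun z => ?_
  show ‖Rf z - x‖⁻¹ * ‖ψ (Rf z) - ψ x - (Rf z - x) • d‖ = ‖z - Rf x‖⁻¹ * ‖Mf ψ z - Mf ψ (Rf x) - (z - Rf x) • conj d‖
  have e1 : Rf z - x = Rf (z - Rf x) := by
    simp [Rf]
    ring
  have e2 : Mf ψ z - Mf ψ (Rf x) - (z - Rf x) • conj d =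
      Rf (ψ (Rf z) - ψ x - (Rf z - x) • d) := by
    simp only [Mf, Rf_Rf, smul_eq_mul]
    simp only [Rf, map_sub, map_mul, map_neg, conj_conj]
    ring
  rw [e1, norm_Rf, e2, norm_Rf, e1]

theorem isU_mf {ψ : ℂ → ℂ} {D : Set ℂ} {a b : ℂ} (h : IsU ψ D a b) :
    IsU (Mf ψ) (Rf '' D) (Rf a) (Rf b) where
  diff := fun z hz => by
    have hz' : 0 < (Rf z).im := by rw [Rf_im]; exact hz
    have h1 := (h.diff (Rf z) hz').hasDerivWithinAt
    have h2 := hasDerivWithinAt_Mf (t := {z : ℂ | 0 < z.im}) (fun w hw => by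
      show 0 < (Rf w).im
      rw [Rf_im]; exact hw) h1
    rw [Rf_Rf] at h2
    exact h2.differentiableWithinAt
  inj := fun z hz w hw e => by
    have e1 := congrArg Rf e
    simp only [Mf, Rf_Rf] at e1
    have e2 := h.inj (by show 0 < (Rf z).im; rw [Rf_im]; exact hz)
      (by show 0 < (Rf w).im; rw [Rf_im]; exact hw) e1
    have e3 := congrArg Rf e2
    rwa [Rf_Rf, Rf_Rf] at e3
  img := by
    rw [← h.img]
    ext w
    constructor
    · rintro ⟨z, hz, rfl⟩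
      exact ⟨_, ⟨Rf z, by show 0 < (Rf z).im; rw [Rf_im]; exact hz, rfl⟩, rfl⟩
    · rintro ⟨_, ⟨z, hz, rfl⟩, rfl⟩
      refine ⟨Rf z, by show 0 < (Rf z).im; rw [Rf_im]; exact hz, ?_⟩
      simp only [Mf, Rf_Rf]
  cont := by
    refine continuous_Rf.comp_continuousOn (h.cont.comp continuous_Rf.continuousOn fun z hz => ?_)
    show 0 ≤ (Rf z).im
    rw [Rf_im]; exact hz
  zero := by
    have : Rf 0 = 0 := by simp [Rf]
    simp only [Mf, this, h.zero]
  infty := by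
    have h1 : Tendsto Rf (cobounded ℂ ⊓ 𝓟 {z : ℂ | 0 ≤ z.im}) (cobounded ℂ ⊓ 𝓟 {z : ℂ | 0 ≤ z.im}) := by
      refine tendsto_inf.2 ⟨?_, ?_⟩
      · refine Tendsto.mono_left ?_ inf_le_left
        rw [← tendsto_norm_atTop_iff_cobounded]
        refine (tendsto_norm_cobounded_atTop (E := ℂ)).congr fun z => (norm_Rf z).symm
      · refine tendsto_principal.2 ?_
        refine Filter.mem_inf_of_right ?_
        intro z hz
        show 0 ≤ (Rf z).im
        rw [Rf_im]; exact hz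
    exact (continuous_Rf.tendsto b).comp (h.infty.comp h1)

end Vale.Agent.P167.H872.Asm
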