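import Vale.Agent.P167.E6.Defs
import Vale.Agent.P167.BVP.Flat
import Vale.Agent.P167.H872.Asm.Mir

/-!
# Flat lattice points of a union of unit squares; the mirror image of a region
-/

open Complex Set Filter Topology Metric
open scoped ComplexConjugate

namespace Vale.Agent.P167.H872.Asm

open Vale.Agent.P167.E6 (region)
open Vale.Agent.P167.BVP (Flat)

/-- A straight horizontal piece of the boundary around the lattice point `x`. -/
theorem flat_int {S : Finset (ℤ × ℤ)} {x : ℤ}
    (h : ∀ v : ℤ × ℤ, x - 1 ≤ v.1 → v.1 ≤ x → -1 ≤ v.2 → v.2 ≤ 0 → (v ∈ S ↔ 0 ≤ v.2)) :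
    Flat (interior (region 1 S)) (x : ℂ) I (1 / 2) := by
  refine ⟨by simp, by norm_num, fun z hz => ?_⟩
  have e : ((z - (x : ℂ)) * conj I).re = z.im := by simp
  rw [e]
  have hb : ∀ w ∈ ball (x : ℂ) (1 / 2), |w.re - x| < 1 / 2 ∧ |w.im| < 1 / 2 := by
    intro w hw
    rw [mem_ball, dist_eq_norm] at hw
    have h1 := abs_re_le_norm (w - (x : ℂ))
    have h2 := abs_im_le_norm (w - (x : ℂ))
    simp only [sub_re, intCast_re, sub_im, intCast_im, sub_zero] at h1 h2
    exact ⟨h1.trans_lt hw, h2.trans_lt hw⟩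
  have hS0 : ((x, 0) : ℤ × ℤ) ∈ S := (h _ (by simp) (by simp) (by norm_num) le_rfl).2 le_rfl
  have hS1 : ((x - 1, 0) : ℤ × ℤ) ∈ S := (h _ (by simp) (by simp) (by norm_num) le_rfl).2 le_rfl
  constructor
  · intro hin
    by_contra hcon
    rw [not_lt] at hcon
    -- a point below the line
    have hz1 := hb z hz
    have hop : IsOpen (interior (region 1 S) ∩ ball (x : ℂ) (1 / 2)) :=
      isOpen_interior.inter isOpen_ball
    obtain ⟨r, hr, hrs⟩ := Metric.isOpen_iff.1 hop z ⟨hin, hz⟩
    set w : ℂ := z - (r / 2 : ℝ) * I with hw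
    have hwm : w ∈ ball z r := by
      rw [mem_ball, dist_eq_norm, hw]
      simp only [sub_sub_cancel_left, norm_neg, norm_mul, norm_I, mul_one, Complex.norm_real,
        Real.norm_eq_abs]
      rw [abs_of_pos (by positivity)]
      linarith
    obtain ⟨h1, h2⟩ := hrs hwm
    obtain ⟨h3, h4⟩ := hb w h2
    have hwi : w.im < 0 := by
      have : w.im = z.im - r / 2 := by simp [hw]
      rw [this]; linarith
    obtain ⟨f, hf, g1, g2, g3, g4⟩ := interior_subset h1
    rw [abs_lt] at h3 h4
    push_cast at g1 g2 g3 g4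
    rw [one_mul] at g1 g2 g3 g4
    have k1 : f.1 ≤ x := by
      have : (f.1 : ℝ) < x + 1 := by linarith
      exact_mod_cast Int.lt_add_one_iff.1 (by exact_mod_cast this)
    have k2 : x - 1 ≤ f.1 := by
      have : (x : ℝ) < f.1 + 2 := by linarith
      have : x < f.1 + 2 := by exact_mod_cast this
      omega
    have k3 : f.2 < 0 := by
      have : (f.2 : ℝ) < 0 := by linarith
      exact_mod_cast this
    have k4 : -1 ≤ f.2 := by
      have : (-2 : ℝ) < f.2 := by linarith
      have : -2 < f.2 := by exact_mod_cast this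
      omega
    have := (h f k2 k1 k4 k3.le).1 hf
    omega
  · intro hpos
    have hz1 := hb z hz
    rw [mem_interior_iff_mem_nhds]
    have hop : IsOpen ({w : ℂ | 0 < w.im} ∩ ball (x : ℂ) (1 / 2)) :=
      (isOpen_lt continuous_const continuous_im).inter isOpen_ball
    filter_upwards [hop.mem_nhds ⟨hpos, hz⟩] with w hw
    obtain ⟨h3, h4⟩ := hb w hw.2
    have h5 : 0 < w.im := hw.1
    rw [abs_lt] at h3 h4
    by_cases hx : w.re ≤ x
    · refine ⟨_, hS1, ?_, ?_, ?_, ?_⟩ <;> push_cast <;> linarith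
    · rw [not_le] at hx
      refine ⟨_, hS0, ?_, ?_, ?_, ?_⟩ <;> push_cast <;> linarith

end Vale.Agent.P167.H872.Asm
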