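import Vale.Agent.P167.H872.Asm.In3
import Vale.Agent.P167.H436.SP.In2
import Vale.Agent.P167.H460.BQ.Fin
import Vale.Agent.P167.H452.BE.Main
import Vale.Agent.P167.H692.B.Asm
import Vale.Agent.P167.QT.TopC

/-!
# P167, general `q`: `BlockIB` from the open inputs of the analysis
-/

namespace Vale.Agent.P167.H872.Asm

open Filter Topology MeasureTheory Vale.Agent.P167.FK Vale.Agent.P167.FKA
open Vale.Agent.P167.H519 (IsLim)

/-- **(BETA) from `In2`.** -/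
theorem s_beta_in2 {θ : ℝ} (h0 : 0 < θ) (h1 : θ < Real.pi / 3) (I : In2 θ h0 h1.le) :
    QB.S_beta θ := by
  have hQ : 1 ≤ 2 * Real.cos θ := H542.Q.BD.one_le h0 h1.le
  have hR : RSW (2 * Real.cos θ) := K8.k_rsw θ h0.le h1.le
  have hS : H192.Q.SRSW (2 * Real.cos θ) := H469.srsw_of_rsw h0 h1.le hR
  obtain ⟨P, hP⟩ := H662.L.exists_isLim hQ hR
  exact H692.B.s_betaL hQ hR hS (H452.BE.s_BE h0 h1 hR hS hP) (H436.SP.powL_in2 h0 h1.le I hP)

/-- **The block of the identity and of the bridge from `In2`.** -/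
theorem blockIB_in2 (H : ∀ (θ : ℝ) (h0 : 0 < θ) (h1 : θ ≤ Real.pi / 3), θ < Real.pi / 3 →
    In2 θ h0 h1) : QT.BlockIB := by
  intro μ h0 h1 h1' ε hε
  have hQ : 1 ≤ 2 * Real.cos μ := H542.Q.BD.one_le h0 h1
  have hR : RSW (2 * Real.cos μ) := K8.k_rsw μ h0.le h1
  have hS : H192.Q.SRSW (2 * Real.cos μ) := H469.srsw_of_rsw h0 h1 hR
  obtain ⟨P, hP⟩ := H662.L.exists_isLim hQ hR
  obtain ⟨χ, hχ, hB⟩ := BQ460.brQ_beta h0 h1' hR hS hP (s_beta_in2 h0 h1' (H μ h0 h1 h1')) hε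
  exact ⟨χ, (idN_of h0 h1 (H μ h0 h1 h1') hχ).idQ, hB⟩

end Vale.Agent.P167.H872.Asm
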