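import Vale.Agent.P167.H872.Asm.Out
import Vale.Agent.P167.H872.Asm.Fl
import Vale.Agent.P167.QT.Defs

/-!
# P167, general `q`: `QT.IdQ` from the open inputs
-/

open Complex Set Filter Topology Metric
open scoped ComplexConjugate

namespace Vale.Agent.P167.H872.Asm

open Vale.Agent.P167.E6 (region pt dir IsPolygon Encloses)
open Vale.Agent.P167.BVP (Flat)
open Vale.Agent.P167.QT
open Vale.Agent.P167.H411.Q (GMarks QAny bpt bpt_side)
open Vale.Agent.P167.H411.B7 (Shp)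
open Vale.Agent.P153.R2.R1 (IsU)

/-! ### The mirror image of a region -/

theorem mem_region_mirS {S : Finset (ℤ × ℤ)} {z : ℂ} :
    z ∈ region 1 (mirS S) ↔ Rf z ∈ region 1 S := by
  constructor
  · rintro ⟨f, hf, h1, h2, h3, h4⟩
    refine ⟨msq f, mem_mirS.1 hf, ?_, ?_, ?_, ?_⟩ <;>
      simp only [msq, Rf_re, Rf_im] <;> push_cast at h1 h2 h3 h4 ⊢ <;> linarith
  · rintro ⟨f, hf, h1, h2, h3, h4⟩
    refine ⟨msq f, mem_mirS.2 (by rwa [msq_msq]), ?_, ?_, ?_, ?_⟩ <;>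
      simp only [msq, Rf_re, Rf_im] at h1 h2 h3 h4 ⊢ <;> push_cast at h1 h2 h3 h4 ⊢ <;> linarith

/-- The reflection as a homeomorphism. -/
def RfH : ℂ ≃ₜ ℂ where
  toFun := Rf
  invFun := Rf
  left_inv := Rf_Rf
  right_inv := Rf_Rf
  continuous_toFun := continuous_Rf
  continuous_invFun := continuous_Rf

theorem interior_mirS (S : Finset (ℤ × ℤ)) :
    interior (region 1 (mirS S)) = Rf '' interior (region 1 S) := by
  have e : region 1 (mirS S) = RfH ⁻¹' region 1 S := by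
    ext z
    exact mem_region_mirS
  rw [e, ← RfH.preimage_interior]
  ext z
  constructor
  · intro hz
    exact ⟨Rf z, hz, Rf_Rf z⟩
  · rintro ⟨w, hw, rfl⟩
    show Rf (Rf w) ∈ interior (region 1 S)
    rwa [Rf_Rf]

theorem Rf_pt (z : ℤ × ℤ) : Rf (pt z) = pt (mir z) := by
  apply Complex.ext <;> simp [Rf, pt, mir]

/-! ### The marks -/

section

variable {P : Sh4} {ρ : ℕ} (h : P.Ok ρ)
include h

theorem q_m : P.q 0 = ((P.m : ℤ) - P.l, 0) := by
  have h0 := h.line P.m (by have := h.k_lt; have := h.j_lt; have := h.l_lt; omega) (by omega)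
  rwa [ZMod.natCast_self] at h0

theorem q_1 : P.q 1 = ((P.m : ℤ) + 1 - P.l, 0) := by
  have h0 := h.line (P.m + 1) (by have := h.k_lt; have := h.j_lt; have := h.l_lt; omega) le_rfl
  push_cast at h0
  rwa [ZMod.natCast_self, zero_add] at h0

/-- The base point. -/
theorem bp_dat : (Sh4.dat h).bp = (((P.l : ℝ) - P.m - 1 / 2 : ℝ) : ℂ) := by
  show pt (mirq P.q 0) + ((1 / 2 : ℝ) : ℂ) * pt (dir 0) = _
  have e : mirq P.q 0 = mir (P.q 1) := by unfold mirq; rw [sub_zero]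
  rw [e, q_1 h]
  apply Complex.ext
  · simp [pt, mir, dir]
    ring
  · simp [pt, mir, dir]

/-- The index of the side of the tip. -/
theorem cast_mk : ((P.m - P.k : ℕ) : ZMod P.m) = -(P.k : ZMod P.m) := by
  have h1 := h.k_lt; have h2 := h.j_lt; have h3 := h.l_lt
  rw [Nat.cast_sub (by omega), ZMod.natCast_self, zero_sub]

/-- The tip of a shape. -/
noncomputable def tipP (P : Sh4) : ℂ :=
  pt (P.q P.k) + ((1 / 2 : ℝ) : ℂ) * pt (P.q (P.k + 1) - P.q P.k)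

/-- The tip of the mirror image. -/
theorem tip_dat : bpt (Sh4.dat h) (((P.m - P.k : ℕ) : ℝ) + (Sh4.dat h).tp) = Rf (tipP P) := by
  have e0 : bpt (Sh4.dat h) ((((P.m - P.k : ℕ) : ℤ) : ℝ) + (1 / 2 : ℝ)) =
      pt (mirq P.q (((P.m - P.k : ℕ) : ℤ) : ZMod P.m)) + ((1 / 2 : ℝ) : ℂ) *
        (pt (mirq P.q ((((P.m - P.k : ℕ) : ℤ) : ZMod P.m) + 1)) -
          pt (mirq P.q (((P.m - P.k : ℕ) : ℤ) : ZMod P.m))) :=
    bpt_side (Sh4.dat h) ((P.m - P.k : ℕ) : ℤ) (t := (1 / 2 : ℝ)) (by norm_num) (by norm_num)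
  have e1 : (((P.m - P.k : ℕ) : ℝ) + (Sh4.dat h).tp) =
      ((((P.m - P.k : ℕ) : ℤ) : ℝ) + (1 / 2 : ℝ)) := by
    rw [Int.cast_natCast]
    rfl
  have e2 : mirq P.q (((P.m - P.k : ℕ) : ℤ) : ZMod P.m) = mir (P.q (P.k + 1)) := by
    unfold mirq
    rw [Int.cast_natCast, cast_mk h, sub_neg_eq_add, add_comm]
  have e3 : mirq P.q ((((P.m - P.k : ℕ) : ℤ) : ZMod P.m) + 1) = mir (P.q P.k) := by
    unfold mirq
    rw [Int.cast_natCast, cast_mk h]
    congr 2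
    ring
  rw [e1, e0, e2, e3]
  unfold tipP
  generalize P.q P.k = a
  generalize P.q (P.k + 1) = b
  apply Complex.ext
  · simp [Rf, pt, mir]
    ring
  · simp [Rf, pt, mir]
    ring

theorem tip_step : (Sh4.dat h).p (((P.m - P.k : ℕ) : ZMod (Sh4.dat h).l) + 1) =
    (Sh4.dat h).p ((P.m - P.k : ℕ) : ZMod (Sh4.dat h).l) + (1, 0) := by
  have e2 : mirq P.q ((P.m - P.k : ℕ) : ZMod P.m) = mir (P.q (P.k + 1)) := by
    unfold mirq
    rw [cast_mk h, sub_neg_eq_add, add_comm]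
  have e3 : mirq P.q (((P.m - P.k : ℕ) : ZMod P.m) + 1) = mir (P.q P.k) := by
    unfold mirq
    rw [cast_mk h]
    congr 2
    ring
  show mirq P.q (((P.m - P.k : ℕ) : ZMod P.m) + 1) = mirq P.q ((P.m - P.k : ℕ) : ZMod P.m) + (1, 0)
  rw [e2, e3, h.tip]
  simp [mir]

theorem tip_re : (Rf (tipP P)).re = -((P.q P.k).1 : ℝ) - 1 / 2 := by
  unfold tipP
  rw [h.tip, Rf_re]
  simp [pt]
  ring

/-- The tip is not near a lattice point of the axis. -/
theorem tip_off (x : ℤ) : Rf (tipP P) ∉ ball (x : ℂ) (1 / 2) := by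
  intro hb
  rw [mem_ball, dist_eq_norm] at hb
  have h1 := (abs_re_le_norm _).trans_lt hb
  rw [sub_re, tip_re h, intCast_re, abs_lt] at h1
  obtain ⟨h2, h3⟩ := h1
  have k1 : -(((P.q P.k).1 + x : ℤ) : ℝ) < 1 := by push_cast; linarith
  have k2 : (0 : ℝ) < -(((P.q P.k).1 + x : ℤ) : ℝ) := by push_cast; linarith
  have k3 : -((P.q P.k).1 + x) < 1 := by exact_mod_cast k1
  have k4 : 0 < -((P.q P.k).1 + x) := by exact_mod_cast k2
  omega

/-- The mirror image is flat near `0` and near the mirror image of `c`. -/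
theorem flat_dat (hρ : 2 ≤ ρ) {x : ℤ} (h0 : 0 ≤ x) (h1 : x ≤ (P.l : ℤ) - P.j) :
    Flat (Sh4.dat h).P (x : ℂ) I (1 / 2) := by
  refine flat_int fun v a1 a2 a3 a4 => ?_
  show v ∈ mirS P.S ↔ _
  rw [mem_mirS]
  have hρ' : (2 : ℤ) ≤ ρ := by exact_mod_cast hρ
  exact h.flat (msq v) (by show _ ≤ -1 - v.1; omega) (by show -1 - v.1 < _; omega)
    (by show _ ≤ v.2; omega) (by show v.2 < _; omega)

theorem gmarks_dat (hρ : 2 ≤ ρ) : GMarks (Sh4.dat h) (bpt (Sh4.dat h)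
    (((P.m - P.k : ℕ) : ℝ) + (Sh4.dat h).tp)) ((P.l - P.j : ℝ) : ℂ) I (1 / 2) 0 I (1 / 2) := by
  have k1 := h.k_lt; have k2 := h.j_lt; have k3 := h.l_lt
  have hlj : (((P.l : ℤ) - P.j : ℤ) : ℂ) = ((P.l - P.j : ℝ) : ℂ) := by push_cast; ring
  have g1 : (2 : ℝ) ≤ (P.l : ℝ) - P.j := by
    have : P.j + 2 ≤ P.l := by omega
    have : ((P.j + 2 : ℕ) : ℝ) ≤ P.l := by exact_mod_cast this
    push_cast at this
    linarith
  have g2 : (2 : ℝ) ≤ (P.m : ℝ) - P.l := by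
    have : P.l + 2 ≤ P.m := by omega
    have : ((P.l + 2 : ℕ) : ℝ) ≤ P.m := by exact_mod_cast this
    push_cast at this
    linarith
  have hlj0 : (0 : ℤ) ≤ (P.l : ℤ) - P.j := by omega
  have far : ∀ x y : ℝ, 1 / 2 ≤ |x - y| → (x : ℂ) ∉ ball (y : ℂ) (1 / 2) := by
    intro x y hxy hb
    rw [mem_ball, dist_eq_norm, ← ofReal_sub, Complex.norm_real, Real.norm_eq_abs] at hb
    linarith
  have z0 : ((0 : ℤ) : ℂ) = 0 := Int.cast_zero
  refine ⟨?_, ?_, ?_, ?_, ?_, ?_, ?_, ?_⟩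
  · rw [← hlj]; exact flat_dat h hρ hlj0 le_rfl
  · rw [← z0]; exact flat_dat h hρ le_rfl hlj0
  · rw [bp_dat h]
    refine far _ _ ?_
    rw [abs_of_nonpos (by linarith)]
    linarith
  · rw [bp_dat h, ← ofReal_zero]
    refine far _ _ ?_
    rw [abs_of_nonpos (by linarith)]
    linarith
  · rw [tip_dat h, ← hlj]; exact tip_off h _
  · rw [tip_dat h, ← z0]; exact tip_off h _
  · rw [← ofReal_zero]
    refine far _ _ ?_
    rw [sub_zero, abs_of_pos (by linarith)]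
    linarith
  · rw [← ofReal_zero]
    refine far _ _ ?_
    rw [zero_sub, abs_neg, abs_of_pos (by linarith)]
    linarith

theorem qany_dat {u v : ℝ} (hp : P.Pos u v) : QAny (Sh4.dat h).P (bpt (Sh4.dat h)
    (((P.m - P.k : ℕ) : ℝ) + (Sh4.dat h).tp)) (Sh4.dat h).bp ((P.l - P.j : ℝ) : ℂ) 0 u v := by
  obtain ⟨φ, xc, xd, D, hφ, h1, h2, h3, h4, h5, h6, h7, h8⟩ := hp
  have hP : (Sh4.dat h).P = Rf '' interior (region 1 P.S) := interior_mirS P.S
  have hb : (Sh4.dat h).bp = Rf (pt (P.q 0) + 1 / 2) := by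
    rw [bp_dat h, q_m h]
    apply Complex.ext
    · simp [Rf, pt]
      ring
    · simp [Rf, pt]
  have hd0 : 0 < xd := h1.trans h2
  refine ⟨Mf φ, -xc, -xd, D, conj ((1 / D : ℝ) : ℂ), ?_, by linarith, by linarith,
    by intro hh; linarith, h3, ?_, ?_, ?_, ?_, ?_, ?_⟩
  · rw [hP, tip_dat h, hb]
    exact isU_mf hφ
  · have e : Rf ((-xc : ℝ) : ℂ) = (xc : ℂ) := by rw [Rf_ofReal, neg_neg]
    show Rf (φ (Rf ((-xc : ℝ) : ℂ))) = _
    rw [e, h4]
    have hl : P.q P.j = ((P.j : ℤ) - P.l, 0) := h.line P.j (by omega)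
      (by have := h.j_lt; have := h.l_lt; omega)
    rw [hl]
    apply Complex.ext
    · simp [Rf, pt]
    · simp [Rf, pt]
  · have e : Rf ((-xd : ℝ) : ℂ) = (xd : ℂ) := by rw [Rf_ofReal, neg_neg]
    show Rf (φ (Rf ((-xd : ℝ) : ℂ))) = _
    rw [e, h5]
    simp [Rf]
  · have h9 := hasDerivWithinAt_Mf (t := {z : ℂ | 0 ≤ z.im}) (fun w hw => by
      show 0 ≤ (Rf w).im
      rw [Rf_im]; exact hw) h6
    rwa [Rf_ofReal] at h9
  · rw [Complex.norm_conj, Complex.norm_real, Real.norm_of_nonneg (by positivity)]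
  · rw [h7, abs_neg, abs_neg, abs_of_pos h1, abs_of_pos hd0]
  · rw [h8, show -xd - -xc = -(xd - xc) by ring, abs_neg, abs_of_pos (by linarith)]

end

/-- **[IDQ]** from the open inputs, every shape `χ`. -/
theorem idQ_of {μ : ℝ} (h0 : 0 < μ) (h1 : μ ≤ Real.pi / 3) (J : Inp μ h0 h1) {χ : ℂ → ℝ}
    (hχ : Shp Complex.I χ) : IdQ h0 h1 χ := by
  obtain ⟨zz, hzz⟩ := out_main h0 h1 J
  refine ⟨zz χ, fun P h u v hp => ?_⟩
  exact hzz χ hχ (Sh4.dat h) (P.m - P.k) (Sh4.bc_in h) F4 F4_le inferInstance (tip_step h)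
    _ _ _ _ _ _ u v
    (gmarks_dat h le_rfl) (qany_dat h hp)

end Vale.Agent.P167.H872.Asm
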