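import Vale.Agent.P167.H872.Asm.IdN
import Vale.Agent.P167.H506.Q.S2G
import Vale.Agent.P167.QX.S8
import Vale.Agent.P167.H704.S.Fin
import Vale.Agent.P167.H662.L.Lay7

/-!
# P167, general `q`: block 2A from (L2S)
-/

namespace Vale.Agent.P167.H872.Asm

open Filter Topology MeasureTheory Vale.Agent.P167.FK Vale.Agent.P167.FKA
open Vale.Agent.P167.H519 (IsLim)
open Vale.Agent.P167.CA (Dat)
open Vale.Agent.P167.H825.Q (S2aQq Bc bdQ qS kS tN)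
open Vale.Agent.P167.H760.Q (TwoAll)
open Vale.Agent.P167.H398.Q (L2S)
open Vale.Agent.P167.QB (gB)

/-- **Block 2A from (L2S).** -/
theorem two_of {θ : ℝ} (h0 : 0 < θ) (h1 : θ ≤ Real.pi / 3) (hL2 : L2S θ (gB θ)) :
    S2aQq θ (gB θ) := by
  have hQ : 1 ≤ 2 * Real.cos θ := H542.Q.BD.one_le h0 h1
  have hR : RSW (2 * Real.cos θ) := K8.k_rsw θ h0.le h1
  obtain ⟨P, hP⟩ := H662.L.exists_isLim hQ hR
  exact H506.Q.s2aQq_3 h0 h1 (Or.inl rfl) hP (QX.l1S h0 h1 (Or.inl rfl)) hL2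
    (H704.S.p2s h0 h1 (Or.inl rfl) hP)

end Vale.Agent.P167.H872.Asm
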