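import Vale.Agent.P167.H872.Asm.Two
import Vale.Agent.P167.H760.Q.NeuB

/-!
# P167, general `q`: the Neumann block and `BlockIB` from `MomT` and `LamT`
-/

namespace Vale.Agent.P167.H872.Asm

open Filter Topology MeasureTheory Vale.Agent.P167.FK Vale.Agent.P167.FKA
open Vale.Agent.P167.CA (Dat)
open Vale.Agent.P167.H825.Q (Bc)
open Vale.Agent.P167.H542.Q (BD)
open Vale.Agent.P167.H760.Q (NeuH BaseQ neu_block)
open Vale.Agent.P167.H365.NQ (nredq_cos)
open Vale.Agent.P167.H852.Q (Cls MomT LamT)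
open Vale.Agent.P167.QB (gB)

/-- The two inputs of the Neumann block. -/
def BlockML : Prop :=
  ∀ θ : ℝ, 0 < θ → θ ≤ Real.pi / 3 → ∀ (S : Dat) (X : BD S θ (gB θ)) (s : ℕ → ℕ), BaseQ X s →
    Cls X → MomT X ∧ LamT X

/-- **The Neumann block.** -/
theorem blockN_of (H : BlockML) : BlockN := by
  intro θ h0 h1 S bc hbc L hL hc hg hb f hf
  refine neu_block h0 h1 (hbe θ) (fun t => nredq_cos h0 h1 t (by norm_num))
    (fun X s h2 h3 => H θ h0 h1 _ X s h2 h3) S bc hbc L hL hc hg.tp hg.r hg.four ?_ hf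
  rintro i ta rfl
  exact hb

/-- **`BlockIB` from `MomT` and `LamT`.** -/
theorem blockIB_ml (H : BlockML) : QT.BlockIB := blockIB_of (blockN_of H)

end Vale.Agent.P167.H872.Asm
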