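import Vale.Agent.P167.H872.Asm.Core
import Vale.Agent.P167.QB.Defs

/-!
# P167, general `q`: the output `OutL` for all lattice polygons from the open inputs

`Inp θ`: the inputs of the blocks 2A, NEU (`NeuH`), EQ and ND, in the form in which they are
used. `out_main`: the asymptotics of the functional with the charges `- θ` at `c`, `+ θ` at `d` in every
Dobrushin polygon, with one function `z`.
-/

namespace Vale.Agent.P167.H872.Asm

open Filter Topology Vale.Agent.P167.FK Vale.Agent.P167.FKA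
open Vale.Agent.P167.CA (Dat)
open Vale.Agent.P167.H825.Q (S2aQq Bc bdQ qS kS tN)
open Vale.Agent.P167.H542.Q (BD)
open Vale.Agent.P167.H760.Q (NeuH)
open Vale.Agent.P167.H365.NQ (NREDQ)
open Vale.Agent.P167.H411.B7 (Shp)
open Vale.Agent.P167.H411.Q (NDz NDa OutL GMarks QAny bpt nrm out_dat arcW arcF Fam3)
open Vale.Agent.P167.BVP (Flat)
open Vale.Agent.P167.QB (gB)

theorem hbe (θ : ℝ) : Real.cos (θ / 2 + gB θ) = Real.sin θ := by
  have e : θ / 2 + gB θ = θ - Real.pi / 2 := by unfold gB; ring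
  rw [e, Real.cos_sub_pi_div_two]

section

variable {θ : ℝ} (h0 : 0 < θ) (h1 : θ ≤ Real.pi / 3) (S : Dat)

/-- The family of the boundary conditions `bc`. -/
noncomputable def fam (bc : Bc) (hbc : bc.In S.l) (L : Filter ℕ) (hL : L ≤ atTop)
    (hc : L.IsCountablyGenerated) : CAQ.Fam S :=
  (bdQ S θ (gB θ) bc hbc L hL hc).famB h0 h1 (hbe θ)

/-- The boundary conditions of a polygon: the junction is at the position `tp` of its side. -/
def BcT (bc : Bc) : Prop :=
  match bc with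
  | .dob _ ta => ta = S.tp
  | _ => True

end

/-- **The open inputs** (`√q = 2 cos θ`). -/
structure Inp (θ : ℝ) (h0 : 0 < θ) (h1 : θ ≤ Real.pi / 3) : Prop where
  /-- Block 2A. -/
  two : S2aQq θ (gB θ)
  /-- Block NEU. -/
  nred : ∀ t, NREDQ (2 * Real.cos θ) t 8
  /-- Block NeuH. -/
  tw : ∀ (S : Dat) (bc : Bc) (hbc : bc.In S.l) (L : Filter ℕ) (hL : L ≤ atTop)
    (hc : L.IsCountablyGenerated), BcT S bc → ∀ f, S.FF f →
      NeuH S L fun n => (fam h0 h1 S bc hbc L hL hc).H n f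
  /-- Block EQUI. -/
  eq : ∀ (S : Dat) (bc : Bc) (hbc : bc.In S.l) (L : Filter ℕ) (hL : L ≤ atTop)
    (hc : L.IsCountablyGenerated), BcT S bc → (fam h0 h1 S bc hbc L hL hc).EQ
  /-- Block ND at the base point and at the flat points. -/
  ndz : ∃ (χp : ℂ → ℝ) (zz : (ℂ → ℝ) → ℕ → ℝ → ℝ), Shp Complex.I χp ∧
    ∀ (S : Dat) (L : Filter ℕ) (hL : L ≤ atTop) (hc : L.IsCountablyGenerated) (rp : ℝ),
      Flat S.P S.bp (nrm S 0) rp →
      NDz θ (fam h0 h1 S .free trivial L hL hc) (fam h0 h1 S .wired trivial L hL hc) (nrm S 0) rp χp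
        zz
  /-- Block ND at the junction (on a horizontal side, domain above). -/
  nda : ∀ (S : Dat) (i : ℕ) (hi : Bc.In S.l (.dob i S.tp)) (L : Filter ℕ) (hL : L ≤ atTop)
    (hc : L.IsCountablyGenerated), S.p (i + 1) = S.p i + (1, 0) →
      NDa θ (fam h0 h1 S (.dob i S.tp) hi L hL hc) (fam h0 h1 S .free trivial L hL hc)
        (bpt S (i + S.tp)) (nrm S i)

theorem kS_dob (S : Dat) (i : ℕ) {n : ℕ} : kS S (.dob i S.tp) n = i * n := by
  show Enl.kOf S.l n (tN S n) i ⌊S.tp * n⌋₊ = i * n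
  unfold Enl.kOf tN
  split_ifs <;> omega

/-- **Output for every polygon, one function `z`.** -/
theorem out_main {θ : ℝ} (h0 : 0 < θ) (h1 : θ ≤ Real.pi / 3) (I : Inp θ h0 h1) :
    ∃ zz : (ℂ → ℝ) → ℕ → ℝ → ℝ, ∀ χ : ℂ → ℝ, Shp Complex.I χ →
      ∀ (S : Dat) (i : ℕ) (hi : Bc.In S.l (.dob i S.tp)) (L : Filter ℕ) (hL : L ≤ atTop)
        (hc : L.IsCountablyGenerated), S.p (i + 1) = S.p i + (1, 0) →
        ∀ (c νc : ℂ) (rc : ℝ) (d νd : ℂ) (rd u v : ℝ),
        GMarks S (bpt S (i + S.tp)) c νc rc d νd rd → QAny S.P (bpt S (i + S.tp)) S.bp c d u v →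
        OutL θ (fam h0 h1 S (.dob i S.tp) hi L hL hc) χ (zz χ) νc c νd d u v := by
  obtain ⟨χp, zz, hχp, hz⟩ := I.ndz
  refine ⟨zz, fun χ hχ S i hi L hL hc htip c νc rc d νd rd u v hM hQ => ?_⟩
  have hi' := hi
  obtain ⟨i0, i1, t0, t1⟩ := hi'
  have hN := I.nred
  -- moments
  have mom : ∀ (bc : Bc) (hbc : bc.In S.l), (fam h0 h1 S bc hbc L hL hc).MOM := fun bc hbc =>
    H662.L.momF_bdQ I.two h0 h1 (hbe θ) S hbc hL hc
  -- core
  have core : ∀ (bc : Bc) (hbc : bc.In S.l), BcT S bc → (fam h0 h1 S bc hbc L hL hc).CORE :=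
    fun bc hbc hb => core_of h0 h1 (hbe θ) _ (mom bc hbc) hN (I.tw S bc hbc L hL hc hb)
      (I.eq S bc hbc L hL hc hb)
  have tD := I.tw S (.dob i S.tp) hi L hL hc rfl _ (ff_zero S)
  have tF := I.tw S .free trivial L hL hc trivial _ (ff_zero S)
  have tW := I.tw S .wired trivial L hL hc trivial _ (ff_zero S)
  have hb : ∀ᶠ n : ℕ in L, qS S n 0 = S.b n :=
    hL ((eventually_gt_atTop 0).mono fun _ hn => H825.Q.qS_zero S hn)
  have hR := K8.k_rsw θ h0.le h1
  have a0 : S.tp < (i : ℝ) + S.tp := by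
    have : (0 : ℝ) < i := by exact_mod_cast i0
    linarith
  have a1 : (i : ℝ) + S.tp < S.l + S.tp := by
    have : (i : ℝ) < S.l := by exact_mod_cast i1
    linarith
  have hF3 : Fam3 θ (fam h0 h1 S (.dob i S.tp) hi L hL hc) (fam h0 h1 S .free trivial L hL hc)
      (fam h0 h1 S .wired trivial L hL hc) := ⟨h0, h1, rfl, rfl, rfl, rfl, rfl⟩
  have lY : H411.Q.Lims (fam h0 h1 S (.dob i S.tp) hi L hL hc) (fam h0 h1 S .free trivial L hL hc)
      (arcW S (i + S.tp)) := by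
    refine H760.Q.lims_DF' h0 h1 (hbe θ) hR (bdQ S θ (gB θ) (.dob i S.tp) hi L hL hc)
      (bdQ S θ (gB θ) .free trivial L hL hc) rfl hb hb (Eventually.of_forall fun n => rfl)
      (C₀ := 1) a0 a1 (Eventually.of_forall fun n => ?_) (mom _ _) (mom _ _) tD tF
    show ((i : ℝ) + S.tp) * n - 1 ≤ ⌊S.tp * n⌋₊ + ((kS S (.dob i S.tp) n : ℕ) : ℝ)
    rw [kS_dob]
    have := Nat.lt_floor_add_one (S.tp * (n : ℝ))
    push_cast
    linarith
  have lZ : H411.Q.Lims (fam h0 h1 S (.dob i S.tp) hi L hL hc)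
      (fam h0 h1 S .wired trivial L hL hc) (arcF S (i + S.tp)) := by
    refine H760.Q.lims_DW' h0 h1 (hbe θ) hR (bdQ S θ (gB θ) (.dob i S.tp) hi L hL hc)
      (bdQ S θ (gB θ) .wired trivial L hL hc) rfl hb hb (Eventually.of_forall fun n => rfl)
      (C₀ := 0) a0 (Eventually.of_forall fun n => ?_) (mom _ _) (mom _ _) tD tW
    show (⌊S.tp * n⌋₊ : ℝ) + ((kS S (.dob i S.tp) n : ℕ) : ℝ) ≤ ((i : ℝ) + S.tp) * n + 0
    rw [kS_dob]
    have := Nat.floor_le (a := S.tp * (n : ℝ)) (by have := S.tp0; positivity)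
    push_cast
    linarith
  have hflat := H411.Q.flat_bpt S 0 S.tp0 S.tp1
  rw [Int.cast_zero, zero_add, H411.Q.bpt_bp] at hflat
  have hd := H411.Q.junction_ne S (i := i) (t := S.tp) (by exact_mod_cast a0) (by exact_mod_cast a1)
  have hrp : Flat S.P S.bp (nrm S 0) (H411.Q.rB S i S.tp) :=
    H411.Q.flat_le hflat (lt_min hflat.pos hd) (min_le_left _ _)
  have hna := I.nda S i hi L hL hc htip
  have key := out_dat hF3 (i := (i : ℤ)) (t := S.tp) t0 t1 (by exact_mod_cast a0)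
    (by exact_mod_cast a1) (core _ _ rfl) (core _ _ trivial) (core _ _ trivial) hχp hχ
    (hz S L hL hc _ hrp) (by simpa using hna) (by simpa using lY) (by simpa using lZ)
    (c := c) (νc := νc) (rc := rc) (d := d) (νd := νd) (rd := rd) (by simpa using hM) (u := u)
    (v := v) (by simpa using hQ)
  exact key

end Vale.Agent.P167.H872.Asm
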