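import Vale.Agent.P167.H872.Asm.Top
import Vale.Agent.P167.H704.Shp.Fin0
import Vale.Agent.P167.H259.S.ArcF
import Vale.Agent.P167.H259.S.CxS3
import Vale.Agent.P167.H638.SM.S4
import Vale.Agent.P167.H469.Flb8
import Vale.Agent.P167.H264.FlS.Main
import Vale.Agent.P167.H174.BD.Fin0

/-!
# P167, general `q`: `B_shp` is a theorem, the final statement from `P_b3`
-/

set_option autoImplicit false

namespace Vale.Agent.P167.H872.Asm

open Vale.Agent.P167.H446.G (B_bad B_shp)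

/-- **The comparison shapes.** -/
theorem b_shp : B_shp :=
  H704.Shp.b_shp_inp (H506.SHP.s_inp_of fun _ _ _ _ _ _ _ _ H hS =>
    ⟨H259.S.f_s3 H, H638.SM.f_s4 H hS, H469.Fl.f_fl1 H hS, H264.FlS.f_fl2 H hS (H259.S.f_arcl H),
      H469.Fl.f_wfl H hS⟩)

/-- **The final statement** for all `1 ≤ q < 4`, from `P_b3`. -/
theorem final_b3
    (h : ∀ (Φ : (ℝ × ℝ) ≃ₜ (ℝ × ℝ)) (δ : ℕ → ℝ) (N k : ℕ → ℕ) (p : ∀ n, ZMod (N n) → ℤ × ℤ)
      (S : ℕ → Finset (ℤ × ℤ)), Final.Approx Φ δ N k p S → H174.BD.P_b3 Φ δ N k p S) :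
    ∀ q : ℝ, 1 ≤ q → q < 4 → Final.Question q :=
  final_of (fun _ h0 h1 => H174.BD.b_bad_b3 h0 h1 h) b_shp

end Vale.Agent.P167.H872.Asm
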