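import Vale.Agent.P167.H872.Asm.IB
import Vale.Agent.P167.H680.S.L2F
import Vale.Agent.P167.H662.D2.E

/-!
# P167, general `q`: block 2A, and `BlockIB` from the Neumann input
-/

namespace Vale.Agent.P167.H872.Asm

open Filter Topology MeasureTheory Vale.Agent.P167.FK Vale.Agent.P167.FKA
open Vale.Agent.P167.CA (Dat)
open Vale.Agent.P167.H825.Q (S2aQq Bc)
open Vale.Agent.P167.H760.Q (NeuH)
open Vale.Agent.P167.QB (gB)

/-- **Block 2A.** -/
theorem two_all {θ : ℝ} (h0 : 0 < θ) (h1 : θ ≤ Real.pi / 3) : S2aQq θ (gB θ) :=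
  two_of h0 h1 (H680.S.l2s_d h0 h1 (Or.inl rfl) (H662.D2.frameD h0 h1 (Or.inl rfl)))

/-- **The Neumann block**, for the families which occur. -/
def BlockN : Prop :=
  ∀ (θ : ℝ) (h0 : 0 < θ) (h1 : θ ≤ Real.pi / 3) (S : Dat) (bc : Bc) (hbc : bc.In S.l) (L : Filter ℕ)
    (hL : L ≤ atTop) (hc : L.IsCountablyGenerated), Gd S L → BcG S bc → ∀ f, S.FF f →
      NeuH S L fun n => (fam h0 h1 S bc hbc L hL hc).H n f

/-- **`BlockIB` from the Neumann block.** -/
theorem blockIB_of (H : BlockN) : QT.BlockIB :=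
  blockIB_in2 fun θ h0 h1 _ => ⟨two_all h0 h1, H θ h0 h1⟩

end Vale.Agent.P167.H872.Asm
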